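import Vale.Agent.P338.R3.H898.FinalB
import Vale.Agent.P338.R3.H784.OpsAll
import Vale.Agent.P338.R3.H121.Cost

/-!
P338-D: the end.
-/

namespace Vale.Agent.P338.R3.H101

open Vale.Agent.P338.R2.H898 Vale.Agent.P338.R3.H121 Vale.Agent.P338.R3.H898
open Vale.Agent.P338.R3.H772

theorem wtOK (A : MTM) : WtOK A (Vale.Agent.P338.R3.H784.wt A) := by
  refine ⟨Vale.Agent.P338.R2.H968.CallEnv.callC A + 211, fun P _ => ⟨fun o h9 h10 => ?_, ?_, ?_⟩⟩
  · rw [Vale.Agent.P338.R3.H784.wt, if_neg h9, if_neg h10]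
    exact Nat.le_mul_of_pos_left _ (by omega)
  · rw [Vale.Agent.P338.R3.H784.wt, if_pos rfl, Vale.Agent.P338.R3.H968.tmw]
    generalize Vale.Agent.P338.R2.H968.CallEnv.callC A = c
    generalize mulTime A (2 * P.b) + 2 * P.b = X
    nlinarith [Nat.zero_le (P.nw * X), Nat.zero_le (c * (P.ell + 1))]
  · rw [Vale.Agent.P338.R3.H784.wt, if_neg (by norm_num), if_pos rfl,
      Vale.Agent.P338.R3.H968.tmp, Vale.Agent.P338.R3.H968.nb]
    generalize Vale.Agent.P338.R2.H968.CallEnv.callC A = c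
    generalize mulTime A ((3 * P.b + 1) * P.nw) = X
    generalize (3 * P.b + 1) * P.nw = Y
    nlinarith [Nat.zero_le (c * (P.ell + 1)), Nat.zero_le X, Nat.zero_le Y]

theorem setupCost (e : ℕ) : SetupCost (Vale.Agent.P338.R3.H898.cS e) := by
  refine ⟨90, e, fun d s y _ _ => ?_⟩
  have h2 : (cpar d s y).ell = ell d s y := by
    unfold Vale.Agent.P338.R3.H968.CPar.ell Vale.Agent.P338.R3.H968.CPar.nw ell cpar
    simp only
    rw [pow_succ]
    ring
  have h3 : Vale.Agent.P338.R3.H898.cS e (mkP d s y) =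
      Vale.Agent.Lib.PolyTime.pb e (2 ^ Vale.Agent.P338.R3.H501.Rad.aR d + s + y) +
        90 * (cpar d s y).ell + 14 * cap d s y := by
    unfold Vale.Agent.P338.R3.H898.cS
    rfl
  rw [h3, h2, Vale.Agent.Lib.PolyTime.pb]
  generalize (2 ^ Vale.Agent.P338.R3.H501.Rad.aR d + s + y + 2) ^ e = X
  omega

theorem exists_fast : ∃ A, Multiplies A ∧ FastAlways A := by
  obtain ⟨cw, c, e, h⟩ := exists_hasCore
  refine fast_of_bd fun A hA => ?_
  exact ⟨_, bd_of 1500 c (wtOK A) (setupCost e) cw, h (Vale.Agent.P338.R3.H784.ops hA)⟩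

end Vale.Agent.P338.R3.H101
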